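import Vale.Agent.P281.H740.TM.SpecR3

/-!
# P281, project T-M (helper740), sub-block R11 of T10: local forms of `Σ = s^N jF^(mN) / Th^(ma)`
-/

open Set Filter Metric MeasureTheory
open Vale.Agent.P281 Vale.Agent.P281.H713 Vale.Agent.P281.H713.TZ.S
open Vale.Agent.P281.H740 (eqF section_loc)
open scoped Manifold ContDiff Topology

set_option linter.unusedSectionVars false

noncomputable section

namespace Vale.Agent.P281.H452.TM

open Vale.Agent.P281.H740.TM

/-- the algebra of the local forms -/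
theorem alg {w b m : ℕ} {s P A jF jf j jX jZ Th H : ℂ} (hF : jF ≠ 0) (hX : jX ≠ 0)
    (hH : H ≠ 0) (h1 : s * P = A * jF ^ m) (h2 : jf * jF = j * jX)
    (h3 : jZ ^ w * Th = H * jX ^ w) :
    s ^ (w * b) * jf ^ (m * (w * b)) / Th ^ (m * b) * (P ^ (w * b) * H ^ (m * b)) =
      A ^ (w * b) * j ^ (m * (w * b)) * jZ ^ (m * (w * b)) := by
  have hT : Th ≠ 0 := by
    intro h0
    rw [h0, mul_zero] at h3
    exact (mul_ne_zero hH (pow_ne_zero w hX)) h3.symm
  have hT' : Th ^ (m * b) ≠ 0 := pow_ne_zero _ hT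
  have e1 : s ^ (w * b) * P ^ (w * b) = A ^ (w * b) * jF ^ (m * (w * b)) := by
    rw [← mul_pow, h1, mul_pow, ← pow_mul]
  have e2 : jf ^ (m * (w * b)) * jF ^ (m * (w * b)) = j ^ (m * (w * b)) * jX ^ (m * (w * b)) := by
    rw [← mul_pow, h2, mul_pow]
  have e3 : jZ ^ (m * (w * b)) * Th ^ (m * b) = H ^ (m * b) * jX ^ (m * (w * b)) := by
    have h4 : m * (w * b) = w * (m * b) := by ring
    rw [h4, pow_mul jZ, pow_mul jX, ← mul_pow, h3, mul_pow]
  have hF' : jF ^ (m * (w * b)) ≠ 0 := pow_ne_zero _ hF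
  rw [div_mul_eq_mul_div, div_eq_iff hT']
  generalize s ^ (w * b) = s' at *
  generalize P ^ (w * b) = P' at *
  generalize A ^ (w * b) = A' at *
  generalize jF ^ (m * (w * b)) = F' at *
  generalize jf ^ (m * (w * b)) = f' at *
  generalize j ^ (m * (w * b)) = j' at *
  generalize jX ^ (m * (w * b)) = X' at *
  generalize jZ ^ (m * (w * b)) = Z' at *
  generalize Th ^ (m * b) = T' at *
  generalize H ^ (m * b) = H' at *
  linear_combination f' * H' * e1 + A' * H' * e2 - A' * j' * e3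

theorem loc (hFr : FrameStmt) : LocStmt := by
  intro q X Z Y F _ _ _ _ _ _ _ _ _ _ _ _ g h y i S w b m Θ Th Δ k s eF hg hh hi hy hinj hsur
    hThm hfin hprime hk hs
  have hf : ContMDiff 𝓘(ℂ, Cm (q + 1 + 1)) 𝓘(ℂ, Cm q) ω (fun x => h (g x)) := hh.comp hg
  have hfr := hFr (q + 1 + 1) q 2 X Y F eF (fun x => h (g x)) i y hf hi hy hsur hinj
  have hkΔ : ∀ D, k D ≠ 0 → Δ D ≠ 0 := by
    intro D hD h0
    have := hk D
    rw [h0, mul_zero] at this
    exact hD (by exact_mod_cast this)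
  -- the common facts near a point
  have hnear : ∀ t₀ : F, ∀ᶠ t in 𝓝 t₀, jac (Cm 2) (chartAt (Cm 2) t₀) t ≠ 0 ∧
      jac (Cm (q + 1 + 1)) (chartAt (Cm (q + 1 + 1)) (i t₀)) (i t) ≠ 0 := by
    intro t₀
    filter_upwards [(chartAt (Cm 2) t₀).open_source.mem_nhds (mem_chart_source _ t₀),
      hi.continuous.continuousAt.eventually
        ((chartAt (Cm (q + 1 + 1)) (i t₀)).open_source.mem_nhds (mem_chart_source _ (i t₀)))]
      with t h1 h2
    exact ⟨jac_chart_ne_zero h1, jac_chart_ne_zero h2⟩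
  constructor
  · intro t₀ H hH hH0 hΔ0
    obtain ⟨j, hj, hj0, hjev⟩ := hfr t₀
    obtain ⟨A, hA, hAev⟩ := section_loc hi hs (z := t₀) (by
      intro D hD
      obtain ⟨e, he⟩ := (hprime D (hkΔ D hD)).2.1 (i t₀)
      have hne : e (i t₀) ≠ 0 := fun h0 => hΔ0 D (hkΔ D hD)
        ((Vale.Agent.P281.IsLocalEq.mem_iff he).2 h0)
      exact ⟨fun t => e (i t), ⟨e, he, Eventually.of_forall fun _ => rfl⟩, hne⟩)
    have hHi : HolV (Cm 2) (fun t => H (i t)) t₀ := HolV.comp hH.1 (hi t₀)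
    refine ⟨fun t => A t ^ (w * b) * j t ^ (m * (w * b)) / H (i t) ^ (m * b), ?_, ?_⟩
    · exact HolV.div (HolV.mul (HolV.pow hA _) (HolV.pow hj _)) (HolV.pow hHi _)
        (pow_ne_zero _ hH0)
    · filter_upwards [hjev, hAev, hnear t₀, hi.continuous.continuousAt.eventually
        (hThm (i t₀) H hH), hHi.continuousAt.eventually_ne hH0] with t h1 h2 h3 h4 h5
      have key := alg (w := w) (b := b) (m := m) (s := s t) (P := 1) (A := A t)
        h3.1 h3.2 h5 (by rw [mul_one]; exact h2) h1 h4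
      rw [one_pow, one_mul] at key
      unfold Sg
      have h6 : H (i t) ^ (m * b) ≠ 0 := pow_ne_zero _ h5
      rw [div_mul_eq_mul_div, eq_div_iff h6]
      exact key
  · intro t₀ E D k₁ o₁ K d hGood hΔ' hd hK
    obtain ⟨hxE, e, d', u, H, v, he, hde, hd', hdd', hu, hu0, hdg, hH, hv, hv0, hHv, -⟩ := hGood
    obtain ⟨j, hj, hj0, hjev⟩ := hfr t₀
    obtain ⟨T, G, A, hT, hG, hA, hev⟩ := hs t₀
    -- `d = d' r` near `g x₀`
    obtain ⟨r, hr, hr0, hre⟩ := MF.leq_unit (E := Cm (q + 1)) (D := D) hd' hd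
    -- the product of the equations is `e^(k E)` times a unit
    have hprod : ∃ Q : F → ℂ, HolV (Cm 2) Q t₀ ∧ Q t₀ ≠ 0 ∧
        ∀ᶠ t in 𝓝 t₀, ∏ D ∈ T, G D t ^ k D = e (i t) ^ k E * Q t := by
      classical
      have hone : ∀ D' ∈ T, ∃ Q : F → ℂ, HolV (Cm 2) Q t₀ ∧ Q t₀ ≠ 0 ∧
          ∀ᶠ t in 𝓝 t₀, G D' t ^ k D' = (if D' = E then e (i t) ^ k E else 1) * Q t := by
        intro D' hD'
        by_cases hDE : D' = E
        · subst hDE
          obtain ⟨e', he', hGe⟩ := hG D' hD'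
          obtain ⟨r', hr', hr0', hre'⟩ := MF.leq_unit (E := Cm (q + 1 + 1)) (D := D') he he'
          refine ⟨fun t => r' (i t) ^ k D', HolV.pow (HolV.comp hr' (hi t₀)) _,
            pow_ne_zero _ hr0', ?_⟩
          filter_upwards [hGe, hi.continuous.continuousAt.eventually hre'] with t h1 h2
          rw [h1, h2, mul_pow, if_pos rfl]
        · refine ⟨fun t => G D' t ^ k D', HolV.pow (eqF.hol hi (hG D' hD')) _, ?_, ?_⟩
          · by_cases hkD : k D' = 0
            · simp [hkD]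
            · refine pow_ne_zero _ fun h0 => hΔ' D' (hkΔ D' hkD) hDE ((eqF.mem (hG D' hD')).2 h0)
          · exact Eventually.of_forall fun t => by rw [if_neg hDE, one_mul]
      choose! Q hQ hQ0 hQe using hone
      refine ⟨fun t => ∏ D' ∈ T, Q D' t, HolV.prod fun D' hD' => hQ D' hD',
        Finset.prod_ne_zero_iff.2 fun D' hD' => hQ0 D' hD', ?_⟩
      have hall : ∀ᶠ t in 𝓝 t₀, ∀ D' ∈ T,
          G D' t ^ k D' = (if D' = E then e (i t) ^ k E else 1) * Q D' t :=
        (Finset.eventually_all T).2 fun D' hD' => hQe D' hD'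
      filter_upwards [hall] with t ht
      rw [Finset.prod_congr rfl ht, Finset.prod_mul_distrib, Finset.prod_ite_eq' ]
      by_cases hET : E ∈ T
      · rw [if_pos hET]
      · have hkE : k E = 0 := by
          by_contra hne
          exact hET (hT E hne)
        rw [if_neg hET, hkE, pow_zero]
    obtain ⟨Q, hQ, hQ0, hQe⟩ := hprod
    -- the bounded function
    have hvi : HolV (Cm 2) (fun t => v (i t)) t₀ := HolV.comp hv (hi t₀)
    have hui : HolV (Cm 2) (fun t => u (i t)) t₀ := HolV.comp hu (hi t₀)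
    have hgi : ContMDiffAt 𝓘(ℂ, Cm 2) 𝓘(ℂ, Cm (q + 1)) ω (fun t => g (i t)) t₀ :=
      (hg (i t₀)).comp t₀ (hi t₀)
    have hri : HolV (Cm 2) (fun t => r (g (i t))) t₀ :=
      HolV.comp (E := Cm 2) (E' := Cm (q + 1)) (f := fun t => g (i t)) hr hgi
    have hBd : HolV (Cm 2) (fun t => A t ^ (w * b) * j t ^ (m * (w * b)) *
        (u (i t) * r (g (i t))) ^ K / (Q t ^ (w * b) * v (i t) ^ (m * b))) t₀ :=
      HolV.div (HolV.mul (HolV.mul (HolV.pow hA _) (HolV.pow hj _))
        (HolV.pow (HolV.mul hui hri) _)) (HolV.mul (HolV.pow hQ _) (HolV.pow hvi _))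
        (mul_ne_zero (pow_ne_zero _ hQ0) (pow_ne_zero _ hv0))
    set Bd : F → ℂ := fun t => A t ^ (w * b) * j t ^ (m * (w * b)) *
        (u (i t) * r (g (i t))) ^ K / (Q t ^ (w * b) * v (i t) ^ (m * b)) with hBddef
    refine ⟨‖Bd t₀‖ + 1, ?_⟩
    filter_upwards [hjev, hev, hnear t₀, hi.continuous.continuousAt.eventually
        (hThm (i t₀) H hH), hi.continuous.continuousAt.eventually hdg,
        hi.continuous.continuousAt.eventually hHv,
        hi.continuous.continuousAt.eventually (Vale.Agent.P281.IsLocalEq.eventually he),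
        hgi.continuousAt.eventually hre, hQe, hQ.continuousAt.eventually_ne hQ0,
        hvi.continuousAt.eventually_ne hv0,
        hBd.continuousAt.norm.eventually_lt_const (show ‖Bd t₀‖ < ‖Bd t₀‖ + 1 by linarith)]
      with t h1 h2 h3 h4 h5 h6 h7 h8 h9 h10 h11 h12 hE
    have hne : e (i t) ≠ 0 := fun h0 => hE ((Vale.Agent.P281.IsLocalEq.mem_iff h7).2 h0)
    have hHne : H (i t) ≠ 0 := by
      rw [h6]; exact mul_ne_zero (pow_ne_zero _ hne) h11
    have hPne : ∏ D ∈ T, G D t ^ k D ≠ 0 := by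
      rw [h9]; exact mul_ne_zero (pow_ne_zero _ hne) h10
    have key := alg (w := w) (b := b) (m := m) (s := s t) (P := ∏ D ∈ T, G D t ^ k D) (A := A t)
        h3.1 h3.2 hHne (h2 hPne) h1 h4
    have hmain : Sg eF (fun x => h (g x)) i w b m Th s t * d (g (i t)) ^ K =
        Bd t * jac (Cm (q + 1)) (chartAt (Cm (q + 1)) (g (i t₀))) (g (i t)) ^ (m * (w * b)) := by
      have hden : (Q t ^ (w * b) * v (i t) ^ (m * b)) ≠ 0 :=
        mul_ne_zero (pow_ne_zero _ h10) (pow_ne_zero _ h11)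
      have hen : e (i t) ^ (k₁ * K) ≠ 0 := pow_ne_zero _ hne
      rw [hBddef]
      dsimp only
      rw [div_mul_eq_mul_div, eq_div_iff hden]
      unfold Sg
      have h13 : d (g (i t)) ^ K = e (i t) ^ (k₁ * K) * (u (i t) * r (g (i t))) ^ K := by
        rw [h8, h5, pow_mul, ← mul_pow, mul_assoc]
      have h14 : (∏ D ∈ T, G D t ^ k D) ^ (w * b) * H (i t) ^ (m * b) =
          e (i t) ^ (k₁ * K) * (Q t ^ (w * b) * v (i t) ^ (m * b)) := by
        rw [h9, h6, mul_pow, mul_pow, ← pow_mul, ← pow_mul, hK, pow_add]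
        have h15 : k E * (w * b) = w * b * k E := by ring
        have h16 : o₁ * (m * b) = m * b * o₁ := by ring
        rw [h15, h16]
        ring
      rw [h14] at key
      rw [h13]
      linear_combination (u (i t) * r (g (i t))) ^ K * key
    rw [hmain, norm_mul]
    exact mul_le_mul_of_nonneg_right h12.le (norm_nonneg _)

end Vale.Agent.P281.H452.TM

end
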