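import Vale.Agent.P281.H452.TM.Loc
import Vale.Agent.P281.H747.TM.Frame

/-!
# P281, project T-M (helper740), R11 without input
-/

namespace Vale.Agent.P281.H452.TM

theorem locStmt : Vale.Agent.P281.H740.TM.LocStmt := loc Vale.Agent.P281.H747.TM.frameStmt

end Vale.Agent.P281.H452.TM
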